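import Vale.Agent.Lib.P254.Final
import Vale.Agent.Lib.P254.FewMain

namespace Vale.Agent.Results.P254.Collected

open Vale.Agent.Lib.P254

/-- Collection of the four results of this folder on the strong isotropic constant conjecture
(each conjunct is the statement of one of the hand-ins `FewVertices`, `PyramidFormula`,
`PyramidTransfer`, `DimensionDescent`):

1. (few vertices) for `n ≥ 1`, if `K` is the convex hull of `n + 2` points of `R^n` and is a
   convex body, then `L_K ≤ L_S` for every `n`-simplex `S`, and equality forces `K` to be a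
   simplex;
2. (pyramid formula) for `n ≥ 1` and a convex body `K` of `R^n`, the pyramid over `K` is a convex
   body of `R^(n+1)` and `L_(pyramid K)^(2(n+1)) = (n+1)^(n+3) / ((n+2)^2 (n+3)^(n+1)) L_K^(2n)`;
3. (pyramid transfer) for `n ≥ 1`, a convex body `K` and a simplex `S` of `R^n`: the pyramid over
   `K` is a convex body, the pyramid over `S` is a simplex, `L_(pyramid K) ≤ L_(pyramid S)` iff
   `L_K ≤ L_S`, equality upstairs iff equality downstairs, and the pyramid over `K` is a simplex
   iff `K` is;
4. (dimension descent) for `1 ≤ n ≤ m`, the conjecture in dimension `m` implies the conjecture in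
   dimension `n`. -/
theorem result :
    (∀ (n : ℕ), 1 ≤ n → ∀ (v : Fin (n + 2) → (Fin n → ℝ)),
        IsConvexBody (convexHull ℝ (Set.range v)) → ∀ (S : Set (Fin n → ℝ)), IsSimplex S →
      isoConst (convexHull ℝ (Set.range v)) ≤ isoConst S ∧
      (isoConst (convexHull ℝ (Set.range v)) = isoConst S →
        IsSimplex (convexHull ℝ (Set.range v)))) ∧
    (∀ (n : ℕ), 1 ≤ n → ∀ (K : Set (Fin n → ℝ)), IsConvexBody K →
      IsConvexBody (pyramid K) ∧
      isoConst (pyramid K) ^ (2 * (n + 1))
        = ((n:ℝ) + 1) ^ (n + 3) / (((n:ℝ) + 2) ^ 2 * ((n:ℝ) + 3) ^ (n + 1))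
          * isoConst K ^ (2 * n)) ∧
    (∀ (n : ℕ), 1 ≤ n → ∀ (K S : Set (Fin n → ℝ)), IsConvexBody K → IsSimplex S →
      IsConvexBody (pyramid K) ∧ IsSimplex (pyramid S) ∧
      (isoConst (pyramid K) ≤ isoConst (pyramid S) ↔ isoConst K ≤ isoConst S) ∧
      (isoConst (pyramid K) = isoConst (pyramid S) ↔ isoConst K = isoConst S) ∧
      (IsSimplex (pyramid K) ↔ IsSimplex K)) ∧
    (∀ (n m : ℕ), 1 ≤ n → n ≤ m → StrongIsotropicConjecture m → StrongIsotropicConjecture n) :=
  ⟨fun _ hn v hK _ hS => few_vertices hn v hK hS,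
   fun _ hn _ hK => ⟨isConvexBody_pyramid hK, isoConst_pyramid hK hn⟩,
   fun _ hn _ _ hK hS => pyramid_transfer hn hK hS,
   fun n m hn hnm h => conjecture_descent n m hn hnm h⟩

end Vale.Agent.Results.P254.Collected
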