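import Vale.Agent.Lib.P254.Final

namespace Vale.Agent.Results.P254.DimensionDescent

open Vale.Agent.Lib.P254

/-- Dimension descent for the strong isotropic constant conjecture: if the conjecture holds in
dimension `m` (every convex body `K` of `R^m` has `L_K ≤ L_S` for every `m`-simplex `S`, with
equality only if `K` is a simplex), then it holds in every dimension `n` with `1 ≤ n ≤ m`.
Equivalently, a counterexample in dimension `n` produces a counterexample in every higher
dimension (the iterated pyramid over it). -/
theorem result (n m : ℕ) (hn : 1 ≤ n) (hnm : n ≤ m)
    (h : StrongIsotropicConjecture m) : StrongIsotropicConjecture n :=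
  conjecture_descent n m hn hnm h

end Vale.Agent.Results.P254.DimensionDescent
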