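import Vale.Agent.Lib.P254.FewMain

namespace Vale.Agent.Results.P254.FewVertices

open Vale.Agent.Lib.P254

/-- The strong isotropic constant conjecture holds for all polytopes with at most `n + 2`
vertices: if `K` is the convex hull of `n + 2` points of `R^n` (repetitions allowed) and has
nonempty interior, then `L_K ≤ L_S` for every `n`-simplex `S`, and equality forces `K` to be a
simplex. -/
theorem result (n : ℕ) (hn : 1 ≤ n) (v : Fin (n + 2) → (Fin n → ℝ))
    (hK : IsConvexBody (convexHull ℝ (Set.range v))) (S : Set (Fin n → ℝ)) (hS : IsSimplex S) :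
    isoConst (convexHull ℝ (Set.range v)) ≤ isoConst S ∧
    (isoConst (convexHull ℝ (Set.range v)) = isoConst S →
      IsSimplex (convexHull ℝ (Set.range v))) :=
  few_vertices hn v hK hS

end Vale.Agent.Results.P254.FewVertices
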