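import Vale.Agent.Lib.P254.Final

namespace Vale.Agent.Results.P254.PyramidTransfer

open Vale.Agent.Lib.P254

/-- Pyramids transfer the comparison with simplices between dimensions `n` and `n + 1`:
for a convex body `K` and a simplex `S` of `R^n` (`n ≥ 1`), the pyramid over `K` is a convex
body, the pyramid over `S` is a simplex, `L_(pyramid K) ≤ L_(pyramid S)` iff `L_K ≤ L_S`,
equality holds upstairs iff it holds downstairs, and the pyramid over `K` is a simplex iff
`K` is a simplex. -/
theorem result (n : ℕ) (hn : 1 ≤ n) (K S : Set (Fin n → ℝ)) (hK : IsConvexBody K)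
    (hS : IsSimplex S) :
    IsConvexBody (pyramid K) ∧ IsSimplex (pyramid S) ∧
    (isoConst (pyramid K) ≤ isoConst (pyramid S) ↔ isoConst K ≤ isoConst S) ∧
    (isoConst (pyramid K) = isoConst (pyramid S) ↔ isoConst K = isoConst S) ∧
    (IsSimplex (pyramid K) ↔ IsSimplex K) :=
  pyramid_transfer hn hK hS

end Vale.Agent.Results.P254.PyramidTransfer
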